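import Mathlib

/-! P038, helper361: rank function of a bipartite push, greedy loads, intersection Hall. -/

namespace Vale.P038.H361

open Finset

section rank

variable {V : Type*} [DecidableEq V]

/-- union of the sets `N x`, `x ∈ S` -/
def NS (N : V → Finset V) (S : Finset V) : Finset V := S.biUnion N

theorem mem_NS {N : V → Finset V} {S : Finset V} {y : V} : y ∈ NS N S ↔ ∃ x ∈ S, y ∈ N x := by
  simp [NS]

theorem NS_mono (N : V → Finset V) {S T : Finset V} (h : S ⊆ T) : NS N S ⊆ NS N T := by
  intro y hy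
  rw [mem_NS] at *
  obtain ⟨x, hx, hy⟩ := hy
  exact ⟨x, h hx, hy⟩

theorem NS_union (N : V → Finset V) (S T : Finset V) : NS N (S ∪ T) = NS N S ∪ NS N T := by
  ext y
  simp only [mem_NS, mem_union]
  constructor
  · rintro ⟨x, hx | hx, hy⟩
    · exact Or.inl ⟨x, hx, hy⟩
    · exact Or.inr ⟨x, hx, hy⟩
  · rintro (⟨x, hx, hy⟩ | ⟨x, hx, hy⟩)
    · exact ⟨x, Or.inl hx, hy⟩
    · exact ⟨x, Or.inr hx, hy⟩

theorem NS_empty (N : V → Finset V) : NS N ∅ = ∅ := by simp [NS]

theorem NS_inter_sub (N : V → Finset V) (S T : Finset V) : NS N (S ∩ T) ⊆ NS N S ∩ NS N T :=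
  subset_inter (NS_mono N inter_subset_left) (NS_mono N inter_subset_right)

/-- the rank (maximal matching number) of `(K, A)` for the push `p → a ∈ N p` -/
def rk (N : V → Finset V) (K A : Finset V) : ℕ :=
  K.powerset.inf' ⟨∅, by simp⟩ (fun K' => (K \ K').card + (NS N K' ∩ A).card)

theorem rk_le {N : V → Finset V} {K A K' : Finset V} (h : K' ⊆ K) :
    rk N K A ≤ (K \ K').card + (NS N K' ∩ A).card := by
  unfold rk
  exact Finset.inf'_le (fun K' => (K \ K').card + (NS N K' ∩ A).card) (mem_powerset.2 h)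

theorem rk_exists (N : V → Finset V) (K A : Finset V) :
    ∃ K', K' ⊆ K ∧ rk N K A = (K \ K').card + (NS N K' ∩ A).card := by
  unfold rk
  obtain ⟨K', hK', h⟩ := Finset.exists_mem_eq_inf' (s := K.powerset) ⟨∅, by simp⟩
    (fun K' => (K \ K').card + (NS N K' ∩ A).card)
  exact ⟨K', mem_powerset.1 hK', h⟩

theorem le_rk {N : V → Finset V} {K A : Finset V} {m : ℕ}
    (h : ∀ K', K' ⊆ K → m ≤ (K \ K').card + (NS N K' ∩ A).card) : m ≤ rk N K A := by
  obtain ⟨K', hK', e⟩ := rk_exists N K A
  rw [e]; exact h K' hK'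

/-- modularity of `K' ↦ |K \ K'|` (as `|K| - |K'|`) -/
theorem card_sdiff_add {K K' : Finset V} (h : K' ⊆ K) : (K \ K').card + K'.card = K.card :=
  Finset.card_sdiff_add_card_eq_card h

/-- submodularity in the target set -/
theorem rk_submod (N : V → Finset V) (K A B : Finset V) :
    rk N K (A ∪ B) + rk N K (A ∩ B) ≤ rk N K A + rk N K B := by
  obtain ⟨K1, h1, e1⟩ := rk_exists N K A
  obtain ⟨K2, h2, e2⟩ := rk_exists N K B
  have i1 : K1 ∩ K2 ⊆ K := inter_subset_left.trans h1
  have i2 : K1 ∪ K2 ⊆ K := union_subset h1 h2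
  have a1 := rk_le (N := N) (A := A ∪ B) i1
  have a2 := rk_le (N := N) (A := A ∩ B) i2
  have c1 := card_sdiff_add h1
  have c2 := card_sdiff_add h2
  have c3 := card_sdiff_add i1
  have c4 := card_sdiff_add i2
  have c5 := Finset.card_union_add_card_inter K1 K2
  have key : (NS N (K1 ∩ K2) ∩ (A ∪ B)).card + (NS N (K1 ∪ K2) ∩ (A ∩ B)).card
      ≤ (NS N K1 ∩ A).card + (NS N K2 ∩ B).card := by
    have s1 : NS N (K1 ∩ K2) ∩ (A ∪ B) ∪ NS N (K1 ∪ K2) ∩ (A ∩ B)
        ⊆ (NS N K1 ∩ A) ∪ (NS N K2 ∩ B) := by
      intro y hy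
      have hi := @NS_inter_sub V _ N K1 K2 y
      rw [NS_union] at hy
      simp only [mem_union, mem_inter] at *
      tauto
    have s2 : (NS N (K1 ∩ K2) ∩ (A ∪ B)) ∩ (NS N (K1 ∪ K2) ∩ (A ∩ B))
        ⊆ (NS N K1 ∩ A) ∩ (NS N K2 ∩ B) := by
      intro y hy
      have hi := @NS_inter_sub V _ N K1 K2 y
      rw [NS_union] at hy
      simp only [mem_union, mem_inter] at *
      tauto
    have := Finset.card_union_add_card_inter (NS N (K1 ∩ K2) ∩ (A ∪ B))
      (NS N (K1 ∪ K2) ∩ (A ∩ B))
    have := Finset.card_union_add_card_inter (NS N K1 ∩ A) (NS N K2 ∩ B)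
    have := Finset.card_le_card s1
    have := Finset.card_le_card s2
    omega
  omega

/-- increasing differences across the two sides -/
theorem rk_cross (N : V → Finset V) {K K2 A A2 : Finset V} (hK : K ⊆ K2) (hA : A ⊆ A2) :
    rk N K2 A + rk N K A2 ≤ rk N K2 A2 + rk N K A := by
  obtain ⟨L2, h2, e2⟩ := rk_exists N K2 A2
  obtain ⟨L1, h1, e1⟩ := rk_exists N K A
  have i2 : L1 ∪ L2 ⊆ K2 := union_subset (h1.trans hK) h2
  have i1 : L1 ∩ L2 ⊆ K := inter_subset_left.trans h1
  have a2 := rk_le (N := N) (A := A) i2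
  have a1 := rk_le (N := N) (A := A2) i1
  have c1 := card_sdiff_add h1
  have c2 := card_sdiff_add h2
  have c3 := card_sdiff_add i1
  have c4 := card_sdiff_add i2
  have c5 := Finset.card_union_add_card_inter L1 L2
  have key : (NS N (L1 ∪ L2) ∩ A).card + (NS N (L1 ∩ L2) ∩ A2).card
      ≤ (NS N L2 ∩ A2).card + (NS N L1 ∩ A).card := by
    have s1 : NS N (L1 ∪ L2) ∩ A ∪ NS N (L1 ∩ L2) ∩ A2
        ⊆ (NS N L2 ∩ A2) ∪ (NS N L1 ∩ A) := by
      intro y hy
      have hi := @NS_inter_sub V _ N L1 L2 y
      have hA' := @hA y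
      rw [NS_union] at hy
      simp only [mem_union, mem_inter] at *
      tauto
    have s2 : (NS N (L1 ∪ L2) ∩ A) ∩ (NS N (L1 ∩ L2) ∩ A2)
        ⊆ (NS N L2 ∩ A2) ∩ (NS N L1 ∩ A) := by
      intro y hy
      have hi := @NS_inter_sub V _ N L1 L2 y
      have hA' := @hA y
      rw [NS_union] at hy
      simp only [mem_union, mem_inter] at *
      tauto
    have := Finset.card_union_add_card_inter (NS N (L1 ∪ L2) ∩ A) (NS N (L1 ∩ L2) ∩ A2)
    have := Finset.card_union_add_card_inter (NS N L2 ∩ A2) (NS N L1 ∩ A)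
    have := Finset.card_le_card s1
    have := Finset.card_le_card s2
    omega
  omega

theorem rk_empty (N : V → Finset V) (K : Finset V) : rk N K ∅ = 0 := by
  have := rk_le (N := N) (A := (∅ : Finset V)) (Finset.Subset.refl K)
  simpa using this

theorem rk_mono (N : V → Finset V) (K : Finset V) {A B : Finset V} (h : A ⊆ B) :
    rk N K A ≤ rk N K B := by
  obtain ⟨L, hL, e⟩ := rk_exists N K B
  have := rk_le (N := N) (A := A) hL
  have : (NS N L ∩ A).card ≤ (NS N L ∩ B).card := card_le_card (inter_subset_inter_left h)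
  omega

theorem rk_insert_le (N : V → Finset V) (K A : Finset V) (a : V) :
    rk N K (insert a A) ≤ rk N K A + 1 := by
  obtain ⟨L, hL, e⟩ := rk_exists N K A
  have h1 := rk_le (N := N) (A := insert a A) hL
  have h2 : NS N L ∩ insert a A ⊆ insert a (NS N L ∩ A) := by
    intro y hy
    simp only [mem_inter, mem_insert] at *
    tauto
  have h3 := (card_le_card h2).trans (card_insert_le a _)
  omega

theorem rk_insert_of_notMem (N : V → Finset V) (K A : Finset V) {a : V} (ha : a ∉ NS N K) :
    rk N K (insert a A) = rk N K A := by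
  apply le_antisymm
  · obtain ⟨L, hL, e⟩ := rk_exists N K A
    have h1 := rk_le (N := N) (A := insert a A) hL
    have h2 : NS N L ∩ insert a A = NS N L ∩ A := by
      ext y
      simp only [mem_inter, mem_insert]
      constructor
      · rintro ⟨h, rfl | h'⟩
        · exact absurd (NS_mono N hL h) ha
        · exact ⟨h, h'⟩
      · rintro ⟨h, h'⟩; exact ⟨h, Or.inr h'⟩
    rw [h2] at h1
    omega
  · exact rk_mono N K (subset_insert _ _)

/-- sources which see nothing of `A` can be dropped -/
theorem rk_sdiff (N : V → Finset V) (K S A : Finset V) (h : ∀ a ∈ A, a ∉ NS N S) :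
    rk N (K \ S) A = rk N K A := by
  apply le_antisymm
  · -- take an optimal set for K
    obtain ⟨L, hL, e⟩ := rk_exists N K A
    have h1 : L \ S ⊆ K \ S := sdiff_subset_sdiff hL (Subset.refl _)
    have a1 := rk_le (N := N) (A := A) h1
    have h2 : (K \ S) \ (L \ S) ⊆ K \ L := by
      intro y hy; simp only [mem_sdiff] at *; tauto
    have h3 : NS N (L \ S) ∩ A ⊆ NS N L ∩ A :=
      inter_subset_inter_right (NS_mono N sdiff_subset)
    have := card_le_card h2
    have := card_le_card h3
    omega
  · obtain ⟨L, hL, e⟩ := rk_exists N (K \ S) A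
    have h1 : L ∪ (K ∩ S) ⊆ K := union_subset (hL.trans sdiff_subset) inter_subset_left
    have a1 := rk_le (N := N) (A := A) h1
    have h2 : K \ (L ∪ (K ∩ S)) ⊆ (K \ S) \ L := by
      intro y hy; simp only [mem_sdiff, mem_union, mem_inter] at *; tauto
    have h3 : NS N (L ∪ (K ∩ S)) ∩ A ⊆ NS N L ∩ A := by
      intro y hy
      rw [NS_union] at hy
      simp only [mem_union, mem_inter] at *
      rcases hy with ⟨hy | hy, hA⟩
      · exact ⟨hy, hA⟩
      · exact absurd (NS_mono N inter_subset_right hy) (h y hA)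
    have := card_le_card h2
    have := card_le_card h3
    omega

/-- Hall's condition gives full rank -/
theorem rk_full (N : V → Finset V) (K A : Finset V)
    (h : ∀ K', K' ⊆ K → K'.card ≤ (NS N K' ∩ A).card) : rk N K A = K.card := by
  apply le_antisymm
  · have := rk_le (N := N) (A := A) (empty_subset K)
    simpa [NS_empty] using this
  · apply le_rk
    intro K' hK'
    have := card_sdiff_add hK'
    have := h K' hK'
    omega

end rank

section greedy

variable {V : Type*} [LinearOrder V]

/-- telescoping along the linear order -/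
theorem tele (f : Finset V → ℤ) (S : Finset V) :
    ∑ a ∈ S, (f (insert a (S.filter (· < a))) - f (S.filter (· < a))) = f S - f ∅ := by
  induction S using Finset.induction_on_max with
  | empty => simp
  | insert m S hm ih =>
    have hmS : m ∉ S := fun h => lt_irrefl _ (hm m h)
    rw [sum_insert hmS]
    have e1 : (insert m S).filter (· < m) = S := by
      ext y
      simp only [mem_filter, mem_insert]
      constructor
      · rintro ⟨rfl | h, h'⟩
        · exact absurd h' (lt_irrefl _)
        · exact h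
      · intro h; exact ⟨Or.inr h, hm y h⟩
    have e2 : ∀ a ∈ S, (insert m S).filter (· < a) = S.filter (· < a) := by
      intro a ha
      ext y
      simp only [mem_filter, mem_insert]
      constructor
      · rintro ⟨rfl | h, h'⟩
        · exact absurd (h'.trans (hm a ha)) (lt_irrefl _)
        · exact ⟨h, h'⟩
      · rintro ⟨h, h'⟩; exact ⟨Or.inr h, h'⟩
    rw [e1]
    have : ∑ a ∈ S, (f (insert a ((insert m S).filter (· < a))) - f ((insert m S).filter (· < a)))
        = ∑ a ∈ S, (f (insert a (S.filter (· < a))) - f (S.filter (· < a))) := by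
      apply sum_congr rfl
      intro a ha
      rw [e2 a ha]
    rw [this, ih]
    ring

variable [Fintype V]

/-- the targets left unmatched by the greedy matching -/
def unm (N : V → Finset V) (K Z : Finset V) : Finset V :=
  (NS N K \ Z).filter (fun a =>
    rk N K (insert a ((univ \ Z).filter (· < a))) = rk N K ((univ \ Z).filter (· < a)))

theorem unm_card (N : V → Finset V) (K Z : Finset V)
    (h : ∀ K', K' ⊆ K → K'.card ≤ (NS N K' \ Z).card) :
    (unm N K Z).card + K.card = (NS N K \ Z).card := by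
  have hfull : rk N K (univ \ Z) = K.card := by
    apply rk_full
    intro K' hK'
    have e : NS N K' ∩ (univ \ Z) = NS N K' \ Z := by
      ext y; simp
    rw [e]; exact h K' hK'
  have ht := tele (fun A => (rk N K A : ℤ)) (univ \ Z)
  simp only [hfull, rk_empty] at ht
  -- restrict the sum
  have hsub : NS N K \ Z ⊆ univ \ Z := sdiff_subset_sdiff (subset_univ _) (Subset.refl _)
  have hs : ∑ a ∈ univ \ Z, ((rk N K (insert a ((univ \ Z).filter (· < a))) : ℤ)
        - (rk N K ((univ \ Z).filter (· < a)) : ℤ))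
      = ∑ a ∈ NS N K \ Z, ((rk N K (insert a ((univ \ Z).filter (· < a))) : ℤ)
        - (rk N K ((univ \ Z).filter (· < a)) : ℤ)) := by
    symm
    apply sum_subset hsub
    intro a ha ha'
    have : a ∉ NS N K := by
      intro h'
      exact ha' (mem_sdiff.2 ⟨h', (mem_sdiff.1 ha).2⟩)
    rw [rk_insert_of_notMem N K _ this]
    simp
  have hv : ∀ a ∈ NS N K \ Z, ((rk N K (insert a ((univ \ Z).filter (· < a))) : ℤ)
        - (rk N K ((univ \ Z).filter (· < a)) : ℤ))
      = if rk N K (insert a ((univ \ Z).filter (· < a))) = rk N K ((univ \ Z).filter (· < a))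
        then 0 else 1 := by
    intro a _
    have h1 := rk_insert_le N K ((univ \ Z).filter (· < a)) a
    have h2 := rk_mono N K (subset_insert a ((univ \ Z).filter (· < a)))
    split_ifs with hh
    · omega
    · omega
  rw [hs, sum_congr rfl hv] at ht
  have hc : ∑ a ∈ NS N K \ Z, (if rk N K (insert a ((univ \ Z).filter (· < a)))
        = rk N K ((univ \ Z).filter (· < a)) then (0 : ℤ) else 1)
      = (((NS N K \ Z).filter (fun a => ¬ (rk N K (insert a ((univ \ Z).filter (· < a)))
        = rk N K ((univ \ Z).filter (· < a))))).card : ℤ) := by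
    rw [Finset.card_filter]
    push_cast
    apply sum_congr rfl
    intro a _
    split_ifs <;> simp_all
  rw [hc] at ht
  have hsum := Finset.card_filter_add_card_filter_not (s := NS N K \ Z)
    (fun a => rk N K (insert a ((univ \ Z).filter (· < a))) = rk N K ((univ \ Z).filter (· < a)))
  unfold unm
  omega

end greedy

end Vale.P038.H361
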