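import Vale.Agent.P038.H361.Rank

/-! P038, helper361: the two-Hall inequality `|T1| + |T2| ≤ |O| + |O'|`. -/

namespace Vale.P038.H361

open Finset

section

variable {V : Type*} [LinearOrder V] [Fintype V]

/-- monotonicity of the greedy loads: `K ⊆ O^q` outside `S`, `Z' ⊆ Z = NS S`. -/
theorem unm_mono (N : V → Finset V) (K Kq S Z' : Finset V)
    (hK : K \ S ⊆ Kq) (hZ : Z' ⊆ NS N S) {a : V}
    (ha : a ∈ unm N Kq (NS N S)) (haK : a ∈ NS N K \ Z') : a ∈ unm N K Z' := by
  unfold unm at *
  rw [mem_filter] at ha ⊢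
  refine ⟨haK, ?_⟩
  obtain ⟨ha1, ha2⟩ := ha
  have haZ : a ∉ NS N S := (mem_sdiff.1 ha1).2
  set A : Finset V := (univ \ NS N S).filter (· < a) with hA
  set B : Finset V := (univ \ Z').filter (· < a) with hB
  have hAB : A ⊆ B := by
    intro y hy
    simp only [hA, hB, mem_filter, mem_sdiff, mem_univ, true_and] at *
    exact ⟨fun h => hy.1 (hZ h), hy.2⟩
  have haB : a ∉ B := by
    intro h
    exact absurd (mem_filter.1 h).2 (lt_irrefl _)
  -- (i) submodularity
  have h1 := rk_submod N K (insert a A) B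
  have e1 : insert a A ∪ B = insert a B := by
    ext y
    simp only [mem_union, mem_insert]
    constructor
    · rintro ((h | h) | h)
      · exact Or.inl h
      · exact Or.inr (hAB h)
      · exact Or.inr h
    · rintro (h | h)
      · exact Or.inl (Or.inl h)
      · exact Or.inr h
  have e2 : insert a A ∩ B = A := by
    ext y
    simp only [mem_inter, mem_insert]
    constructor
    · rintro ⟨h | h, h'⟩
      · subst h; exact absurd h' haB
      · exact h
    · intro h; exact ⟨Or.inr h, hAB h⟩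
  rw [e1, e2] at h1
  -- (ii) sources inside S are isolated
  have hA1 : ∀ y ∈ A, y ∉ NS N S := by
    intro y hy
    exact (mem_sdiff.1 (mem_filter.1 hy).1).2
  have hA2 : ∀ y ∈ insert a A, y ∉ NS N S := by
    intro y hy
    rcases mem_insert.1 hy with rfl | hy
    · exact haZ
    · exact hA1 y hy
  have h2 := rk_sdiff N K S A hA1
  have h3 := rk_sdiff N K S (insert a A) hA2
  -- (iii) cross
  have h4 := rk_cross N hK (subset_insert a A)
  have h5 := rk_mono N K (subset_insert a B)
  omega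

/-- intersection Hall -/
theorem inter_hall (N : V → Finset V) (S : V → Finset V) (I : Finset V) (K : Finset V)
    (h : ∀ q ∈ I, ∀ K', K' ⊆ K → (∀ p ∈ K', p ∉ S q) → K'.card ≤ (NS N K' \ NS N (S q)).card)
    (hcov : ∀ p ∈ K, ∃ q ∈ I, p ∉ S q) :
    K.card ≤ (NS N K \ univ.filter (fun a => ∀ q ∈ I, a ∈ NS N (S q))).card := by
  induction I using Finset.induction_on generalizing K with
  | empty =>
    have : K = ∅ := by
      apply eq_empty_of_forall_notMem
      intro p hp
      obtain ⟨q, hq, _⟩ := hcov p hp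
      simp at hq
    subst this
    simp
  | insert q I hq ih =>
    set K1 := K.filter (fun p => p ∉ S q) with hK1
    set K2 := K.filter (fun p => p ∈ S q) with hK2
    have c0 : K1.card + K2.card = K.card := by
      have := Finset.card_filter_add_card_filter_not (s := K) (fun p => p ∈ S q)
      simp only [hK1, hK2]; omega
    have c1 : K1.card ≤ (NS N K1 \ NS N (S q)).card := by
      apply h q (mem_insert_self _ _) K1 (filter_subset _ _)
      intro p hp; exact (mem_filter.1 hp).2
    have c2 := ih K2 (fun q' hq' K' hK' hp => h q' (mem_insert_of_mem hq') K'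
        (hK'.trans (filter_subset _ _)) hp) (by
      intro p hp
      obtain ⟨hp1, hp2⟩ := mem_filter.1 hp
      obtain ⟨q', hq', hpq⟩ := hcov p hp1
      rcases mem_insert.1 hq' with rfl | hq'
      · exact absurd hp2 hpq
      · exact ⟨q', hq', hpq⟩)
    have hd : Disjoint (NS N K1 \ NS N (S q))
        (NS N K2 \ univ.filter (fun a => ∀ q ∈ I, a ∈ NS N (S q))) := by
      rw [Finset.disjoint_left]
      intro y hy hy'
      have h1 := (mem_sdiff.1 hy).2
      have h2 := (mem_sdiff.1 hy').1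
      apply h1
      apply NS_mono N _ h2
      intro p hp; exact (mem_filter.1 hp).2
    have hs : (NS N K1 \ NS N (S q)) ∪
        (NS N K2 \ univ.filter (fun a => ∀ q ∈ I, a ∈ NS N (S q)))
        ⊆ NS N K \ univ.filter (fun a => ∀ q' ∈ insert q I, a ∈ NS N (S q')) := by
      intro y hy
      rw [mem_union] at hy
      rw [mem_sdiff, mem_filter]
      rcases hy with hy | hy
      · obtain ⟨h1, h2⟩ := mem_sdiff.1 hy
        refine ⟨NS_mono N (filter_subset _ _) h1, ?_⟩
        rintro ⟨_, h3⟩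
        exact h2 (h3 q (mem_insert_self _ _))
      · obtain ⟨h1, h2⟩ := mem_sdiff.1 hy
        refine ⟨NS_mono N (filter_subset _ _) h1, ?_⟩
        rintro ⟨_, h3⟩
        apply h2
        rw [mem_filter]
        exact ⟨mem_univ _, fun q' hq' => h3 q' (mem_insert_of_mem hq')⟩
    have := card_le_card hs
    rw [card_union_of_disjoint hd] at this
    omega

/-- left interior: intersection over the closed in-neighbourhood -/
def LI (N : V → Finset V) (R : V → Finset V) (a : V) : Finset V :=
  univ.filter (fun x => ∀ p, a ∈ N p → x ∈ R p)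

theorem mem_LI {N R : V → Finset V} {a x : V} : x ∈ LI N R a ↔ ∀ p, a ∈ N p → x ∈ R p := by
  simp [LI]

/-- open cells of a pair of families -/
def Op (P Q : V → Finset V) : Finset (V × V) :=
  univ.filter (fun x => x.2 ∉ P x.1 ∧ x.1 ∉ Q x.2)

theorem mem_Op {P Q : V → Finset V} {a b : V} : (a, b) ∈ Op P Q ↔ b ∉ P a ∧ a ∉ Q b := by
  simp [Op]

/-- count a set of pairs by columns -/
theorem card_cols (T : Finset (V × V)) :
    T.card = ∑ b : V, (univ.filter (fun a => (a, b) ∈ T)).card := by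
  classical
  rw [Finset.card_eq_sum_card_fiberwise (f := fun x : V × V => x.2) (t := univ)
    (fun _ _ => mem_coe.2 (mem_univ _))]
  apply sum_congr rfl
  intro b _
  apply Finset.card_bij (fun x _ => x.1)
  · rintro ⟨x, y⟩ hx
    simp only [mem_filter, mem_univ, true_and] at *
    obtain ⟨h1, h2⟩ := hx
    subst h2; exact h1
  · rintro ⟨x, y⟩ hx ⟨x', y'⟩ hx' h
    simp only [mem_filter] at *
    obtain ⟨_, h2⟩ := hx
    obtain ⟨_, h3⟩ := hx'
    subst h; subst h2; subst h3; rfl
  · intro a ha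
    exact ⟨(a, b), by simpa using ha, rfl⟩

theorem card_rows (T : Finset (V × V)) :
    T.card = ∑ a : V, (univ.filter (fun b => (a, b) ∈ T)).card := by
  classical
  rw [Finset.card_eq_sum_card_fiberwise (f := fun x : V × V => x.1) (t := univ)
    (fun _ _ => mem_coe.2 (mem_univ _))]
  apply sum_congr rfl
  intro b _
  apply Finset.card_bij (fun x _ => x.2)
  · rintro ⟨x, y⟩ hx
    simp only [mem_filter, mem_univ, true_and] at *
    obtain ⟨h1, h2⟩ := hx
    subst h2; exact h1
  · rintro ⟨x, y⟩ hx ⟨x', y'⟩ hx' h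
    simp only [mem_filter] at *
    obtain ⟨_, h2⟩ := hx
    obtain ⟨_, h3⟩ := hx'
    subst h; subst h2; subst h3; rfl
  · intro a ha
    exact ⟨(b, a), by simpa using ha, rfl⟩

/-- THE TWO-HALL INEQUALITY -/
theorem star (N R S : V → Finset V)
    (hrow : ∀ p, ∀ K : Finset V, (∀ q ∈ K, q ∉ R p ∧ p ∉ S q) →
      K.card ≤ (NS N K \ NS N (R p)).card)
    (hcol : ∀ q, ∀ K : Finset V, (∀ p ∈ K, q ∉ R p ∧ p ∉ S q) →
      K.card ≤ (NS N K \ NS N (S q)).card) :
    (Op (LI N R) (fun b => NS N (S b))).card + (Op (fun a => NS N (R a)) (LI N S)).card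
      ≤ (Op R S).card + (Op (fun a => NS N (LI N R a)) (fun b => NS N (LI N S b))).card := by
  classical
  -- columns
  let Kq : V → Finset V := fun q => univ.filter (fun p => q ∉ R p ∧ p ∉ S q)
  let Kb : V → Finset V := fun b => univ.filter (fun p => b ∉ NS N (R p) ∧ p ∉ LI N S b)
  let Zb : V → Finset V := fun b => univ.filter (fun a => ∀ q, b ∈ N q → a ∈ NS N (S q))
  let Xa : V → Finset V := fun a => univ.filter (fun b => ∀ p, a ∈ N p → b ∈ NS N (R p))
  have mKq : ∀ q p, p ∈ Kq q ↔ q ∉ R p ∧ p ∉ S q := by intro q p; simp [Kq]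
  have mKb : ∀ b p, p ∈ Kb b ↔ b ∉ NS N (R p) ∧ p ∉ LI N S b := by intro b p; simp [Kb]
  have mZb : ∀ b a, a ∈ Zb b ↔ ∀ q, b ∈ N q → a ∈ NS N (S q) := by intro b a; simp [Zb]
  have mXa : ∀ a b, b ∈ Xa a ↔ ∀ p, a ∈ N p → b ∈ NS N (R p) := by intro a b; simp [Xa]
  -- Hall for column q
  have H1 : ∀ q, ∀ K', K' ⊆ Kq q → K'.card ≤ (NS N K' \ NS N (S q)).card := by
    intro q K' hK'
    exact hcol q K' (fun p hp => (mKq q p).1 (hK' hp))
  -- Hall for column b of T2
  have H2 : ∀ b, ∀ K', K' ⊆ Kb b → K'.card ≤ (NS N K' \ Zb b).card := by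
    intro b K' hK'
    have := inter_hall N S (univ.filter (fun q => b ∈ N q)) K' (by
      intro q hq K'' hK'' hp
      apply hcol q K''
      intro p hpK
      refine ⟨?_, hp p hpK⟩
      have h1 := ((mKb b p).1 (hK' (hK'' hpK))).1
      intro hqR
      exact h1 (mem_NS.2 ⟨q, hqR, (mem_filter.1 hq).2⟩)) (by
      intro p hp
      have h1 := ((mKb b p).1 (hK' hp)).2
      rw [mem_LI] at h1
      push Not at h1
      obtain ⟨q, hq1, hq2⟩ := h1
      exact ⟨q, by simp [hq1], hq2⟩)
    have e : univ.filter (fun a => ∀ q ∈ univ.filter (fun q => b ∈ N q), a ∈ NS N (S q)) = Zb b := by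
      ext a; simp [Zb]
    rwa [e] at this
  -- horizontal Hall
  have H3 : ∀ a, ∀ K' : Finset V, (∀ q ∈ K', q ∉ LI N R a ∧ a ∉ NS N (S q)) →
      K'.card ≤ (NS N K' \ Xa a).card := by
    intro a K' hK'
    have := inter_hall N R (univ.filter (fun p => a ∈ N p)) K' (by
      intro p hp K'' hK'' hq
      apply hrow p K''
      intro q hqK
      refine ⟨hq q hqK, ?_⟩
      have h1 := (hK' q (hK'' hqK)).2
      intro hpS
      exact h1 (mem_NS.2 ⟨p, hpS, (mem_filter.1 hp).2⟩)) (by
      intro q hq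
      have h1 := (hK' q hq).1
      rw [mem_LI] at h1
      push Not at h1
      obtain ⟨p, hp1, hp2⟩ := h1
      exact ⟨p, by simp [hp1], hp2⟩)
    have e : univ.filter (fun b => ∀ p ∈ univ.filter (fun p => a ∈ N p), b ∈ NS N (R p)) = Xa a := by
      ext b; simp [Xa]
    rwa [e] at this
  -- cards by columns
  have cO : (Op R S).card = ∑ q : V, (Kq q).card := by
    rw [card_cols]
    apply sum_congr rfl
    intro q _
    congr 1
    ext p; simp [Kq, mem_Op]
  have cT1 : (Op (LI N R) (fun b => NS N (S b))).card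
      = ∑ q : V, (NS N (Kq q) \ NS N (S q)).card := by
    rw [card_cols]
    apply sum_congr rfl
    intro q _
    congr 1
    ext a
    simp only [mem_filter, mem_univ, true_and, mem_Op, mem_sdiff]
    constructor
    · rintro ⟨h1, h2⟩
      refine ⟨?_, h2⟩
      rw [mem_LI] at h1
      push Not at h1
      obtain ⟨p, hp1, hp2⟩ := h1
      rw [mem_NS]
      refine ⟨p, (mKq q p).2 ⟨hp2, ?_⟩, hp1⟩
      intro hpS
      exact h2 (mem_NS.2 ⟨p, hpS, hp1⟩)
    · rintro ⟨h1, h2⟩
      refine ⟨?_, h2⟩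
      rw [mem_NS] at h1
      obtain ⟨p, hp, hpa⟩ := h1
      rw [mem_LI]
      intro h
      exact ((mKq q p).1 hp).1 (h p hpa)
  have cT2 : (Op (fun a => NS N (R a)) (LI N S)).card = ∑ b : V, (Kb b).card := by
    rw [card_cols]
    apply sum_congr rfl
    intro q _
    congr 1
    ext p; simp [Kb, mem_Op]
  have cPI : ∑ b : V, (NS N (Kb b) \ Zb b).card
      ≤ (Op (fun a => NS N (LI N R a)) (fun b => NS N (LI N S b))).card := by
    rw [card_cols]
    apply sum_le_sum
    intro b _
    apply card_le_card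
    intro a ha
    simp only [mem_filter, mem_univ, true_and, mem_Op]
    obtain ⟨h1, h2⟩ := mem_sdiff.1 ha
    rw [mem_NS] at h1
    obtain ⟨p, hp, hpa⟩ := h1
    obtain ⟨hp1, hp2⟩ := (mKb b p).1 hp
    constructor
    · intro h
      apply hp1
      refine NS_mono N ?_ h
      intro x hx
      exact (mem_LI.1 hx) p hpa
    · intro h
      apply h2
      rw [mZb]
      intro q hq
      refine NS_mono N ?_ h
      intro x hx
      exact (mem_LI.1 hx) q hq
  -- greedy counts
  have g1 : ∑ q : V, (unm N (Kq q) (NS N (S q))).card + ∑ q : V, (Kq q).card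
      = ∑ q : V, (NS N (Kq q) \ NS N (S q)).card := by
    rw [← sum_add_distrib]
    apply sum_congr rfl
    intro q _
    exact unm_card N (Kq q) (NS N (S q)) (H1 q)
  have g2 : ∑ b : V, (unm N (Kb b) (Zb b)).card + ∑ b : V, (Kb b).card
      = ∑ b : V, (NS N (Kb b) \ Zb b).card := by
    rw [← sum_add_distrib]
    apply sum_congr rfl
    intro b _
    exact unm_card N (Kb b) (Zb b) (H2 b)
  -- comparison of the unmatched cells
  let U1 : Finset (V × V) := univ.filter (fun x => x.1 ∈ unm N (Kq x.2) (NS N (S x.2)))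
  let U2 : Finset (V × V) := univ.filter (fun x => x.1 ∈ unm N (Kb x.2) (Zb x.2))
  have u1 : U1.card = ∑ q : V, (unm N (Kq q) (NS N (S q))).card := by
    rw [card_cols]
    apply sum_congr rfl
    intro q _
    congr 1
    ext p; simp [U1]
  have u2 : U2.card = ∑ b : V, (unm N (Kb b) (Zb b)).card := by
    rw [card_cols]
    apply sum_congr rfl
    intro q _
    congr 1
    ext p; simp [U2]
  have u12 : U1.card ≤ U2.card := by
    rw [card_rows U1, card_rows U2]
    apply sum_le_sum
    intro a _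
    set L : Finset V := univ.filter (fun q => (a, q) ∈ U1) with hL
    have mL : ∀ q, q ∈ L ↔ a ∈ unm N (Kq q) (NS N (S q)) := by
      intro q; simp [hL, U1]
    have hL1 : ∀ q ∈ L, q ∉ LI N R a ∧ a ∉ NS N (S q) := by
      intro q hq
      have h1 := (mem_filter.1 ((mL q).1 hq)).1
      obtain ⟨h2, h3⟩ := mem_sdiff.1 h1
      refine ⟨?_, h3⟩
      rw [mem_NS] at h2
      obtain ⟨p, hp, hpa⟩ := h2
      rw [mem_LI]
      intro h
      exact ((mKq q p).1 hp).1 (h p hpa)
    refine (H3 a L hL1).trans ?_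
    apply card_le_card
    intro b hb
    obtain ⟨hb1, hb2⟩ := mem_sdiff.1 hb
    rw [mem_NS] at hb1
    obtain ⟨q, hq, hqb⟩ := hb1
    simp only [U2, mem_filter, mem_univ, true_and]
    have hau := (mL q).1 hq
    have haS := (hL1 q hq).2
    have hZZ : Zb b ⊆ NS N (S q) := by
      intro y hy
      exact (mZb b y).1 hy q hqb
    apply unm_mono N (Kb b) (Kq q) (S q) (Zb b) _ hZZ hau
    · -- a ∈ NS (Kb b) \ Zb b
      rw [mem_sdiff]
      refine ⟨?_, fun h => haS (hZZ h)⟩
      have hb3 : ¬ ∀ p, a ∈ N p → b ∈ NS N (R p) := fun h => hb2 ((mXa a b).2 h)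
      push Not at hb3
      obtain ⟨p, hpa, hpb⟩ := hb3
      rw [mem_NS]
      refine ⟨p, (mKb b p).2 ⟨hpb, ?_⟩, hpa⟩
      intro hpL
      exact haS (mem_NS.2 ⟨p, (mem_LI.1 hpL) q hqb, hpa⟩)
    · -- Kb b \ S q ⊆ Kq q
      intro p hp
      obtain ⟨hp1, hp2⟩ := mem_sdiff.1 hp
      obtain ⟨hp3, _⟩ := (mKb b p).1 hp1
      refine (mKq q p).2 ⟨?_, hp2⟩
      intro hqR
      exact hp3 (mem_NS.2 ⟨q, hqR, hqb⟩)
  omega

end

end Vale.P038.H361
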